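import Crest.Agent.X262.Lat.IDefs
import Crest.Agent.R208.EZ2

/-!
# Row 262, LAT-ITG (helper23): products of integral classes have integral periods

`2 π` times an integral class of degree two is the Euler class of an oriented plane field; the
product of `r` of them is the Euler class of the direct sum, whose integral is in `(2 π)^r ℤ`.
-/

set_option autoImplicit false
set_option linter.unusedSectionVars false

open scoped ContDiff Matrix RealInnerProductSpace ComplexConjugate Nat

noncomputable section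

namespace Crest.Agent.X262.Itg23

open Crest.Agent.R208.F Crest.Agent.R208.FI Crest.Agent.R208.CW Crest.Agent.R208.T
open Crest.Agent.R208.EW Crest.Agent.R208.EP Crest.Agent.R208.EZ Crest.Agent.X262.Lat

variable {E : Type} [NormedAddCommGroup E] [NormedSpace ℝ E] [FiniteDimensional ℝ E] {X : Set E}
  {d : ℕ}

theorem integ_rcl {o : E → Ext E} (hX : Clo d X) (ho : Ori d X o) {a : E → Ext E} (h : EC X a) :
    integ hX ho (rcl h) = ((J d X o a : ℝ) : ℂ) := by
  rw [rcl, integ_cls]
  refine Complex.ext rfl ?_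
  show J d X o (fun x => (0 : E → Ext E) x) = 0
  have h1 := J_smul (d := d) (X := X) (o := o) (om := fun _ => (0 : Ext E)) (0 : ℝ)
  simpa using h1

theorem lineF {n : Type} [Fintype n] [DecidableEq n] {Q : E → Matrix n n ℂ} (h : Ln X Q) :
    LineF X Q := by
  refine ⟨h.idf.smooth, fun x hx => ?_⟩
  obtain ⟨z, z1, z2⟩ := exists_unitary (ι := Unit) (h.idf.idem x hx) (h.herm x hx)
    (by rw [h.rank hx, Fintype.card_unit])
  refine ⟨fun i => z i (), ?_, ?_⟩
  · have e := congrFun (congrFun z1 ()) ()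
    rw [Matrix.mul_apply, Matrix.one_apply_eq] at e
    rw [← e]
    exact Finset.sum_congr rfl fun i _ => mul_comm _ _
  · rw [← z2]
    refine Matrix.ext fun i j => ?_
    rw [Matrix.mul_apply, Fintype.sum_unique]
    rfl

theorem pf_one (X : Set E) :
    PField X 1 fun _ => ContinuousLinearMap.id ℝ (EuclideanSpace ℝ Unit) := by
  refine ⟨fun _ _ => contDiffAt_const, fun _ _ _ => rfl, fun _ _ => ?_⟩
  rw [ContinuousLinearMap.coe_id, LinearMap.range_id, finrank_top, finrank_euclideanSpace,
    Fintype.card_unit]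

/-- `2 π` times an integral class is an Euler class -/
theorem exists_euC (hX : Sub d X) (hc : IsPreconnected X) {a : H X} (ha : a ∈ Lam X) :
    ∃ (β : E → Ext E) (hβ : EuC X 1 β), rcl hβ.ec = ((2 * Real.pi : ℝ) : ℂ) • a := by
  obtain ⟨n, _, _, Q, h, rfl⟩ := (mem_Lam hX).1 ha
  have hO := or_NL (ι := Unit) (pf_one X) (fun _ _ _ _ => rfl) (lineF h) Fintype.card_unit
  obtain ⟨ε, hε, he⟩ := ec_NL (ι := Unit) hX hc (pf_one X) (fun _ _ _ _ => rfl) (lineF h)
    Fintype.card_unit
  have h1 : cc hX (idF_of_pfield (pf_one X)) 1 = 0 := by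
    have h2 := el_succ (sc hX (idF_of_pfield (pf_one X))) 0
    rw [cc_eq_el]
    have h3 : sc hX (idF_of_pfield (pf_one X)) 1 = 0 := sc_const hX _ le_rfl
    simpa [el_zero, h3] using h2
  simp only [Finset.sum_range_succ, Finset.range_zero, Finset.sum_empty, zero_add, cc_zero, h1,
    Nat.sub_zero, pow_one, one_mul, zero_mul, add_zero, Nat.factorial_one, Nat.cast_one,
    mul_one] at he
  obtain ⟨δ, hδ, rfl⟩ : ∃ δ : ℝ, (δ = 1 ∨ δ = -1) ∧ ε = δ := by
    rcases hε with rfl | rfl
    · exact ⟨1, Or.inl rfl, by simp⟩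
    · exact ⟨-1, Or.inr rfl, by simp⟩
  have hδ2 : δ * δ = 1 := by rcases hδ with rfl | rfl <;> norm_num
  refine ⟨_, EuC.of (hO.EC.smul (δ / 2)) hO Fintype.card_unit ⟨δ, hδ, ?_⟩, ?_⟩
  · rw [smul_smul]
    have e : δ * (2 ^ 1 * ((1 ! : ℕ) : ℝ)) * (δ / 2) = 1 := by
      rw [Nat.factorial_one, Nat.cast_one]
      linear_combination hδ2
    rw [e, one_smul]
    exact Coh.refl _
  · have e := rcl_smul (δ / 2) hO.EC
    rw [← hO.ec_eq, he, smul_smul] at e
    refine e.trans ?_
    rw [h.c1_eq hX, smul_smul]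
    congr 1
    have hp : (Real.pi : ℂ) ≠ 0 := Complex.ofReal_ne_zero.2 Real.pi_ne_zero
    have h2 : (δ : ℂ) * δ = 1 := by exact_mod_cast hδ2
    rw [Lat.kap]
    push_cast
    field_simp
    linear_combination h2

theorem exists_euC_list (hX : Sub d X) (hc : IsPreconnected X) (a : H X) :
    ∀ l : List (H X), a ∈ Lam X → (∀ b ∈ l, b ∈ Lam X) →
      ∃ (β : E → Ext E) (hβ : EuC X (l.length + 1) β),
        rcl hβ.ec = ((2 * Real.pi : ℝ) : ℂ) ^ (l.length + 1) • (a * l.prod) := by
  intro l
  induction l generalizing a with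
  | nil =>
    intro ha _
    obtain ⟨β, hβ, e⟩ := exists_euC hX hc ha
    exact ⟨β, hβ, by rw [e]; simp⟩
  | cons b l ih =>
    intro ha hl
    obtain ⟨β, hβ, e⟩ := exists_euC hX hc ha
    obtain ⟨γ, hγ, e'⟩ := ih b (hl b List.mem_cons_self)
      fun c hc => hl c (List.mem_cons_of_mem _ hc)
    have h1 : EuC X ((b :: l).length + 1) (β * γ) := by
      have := hβ.mul hγ
      rwa [add_comm 1] at this
    refine ⟨β * γ, h1, ?_⟩
    have e2 := rcl_mul hβ.ec hγ.ec
    rw [e, e', smul_mul_smul_comm, ← pow_succ'] at e2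
    exact e2

/-- **products of integral classes have integral periods** -/
theorem itgStmt : ItgStmt := by
  intro E _ _ _ X r o hX ho hc hr l hl hlen
  cases l with
  | nil => exact absurd hlen (by simp; omega)
  | cons a l =>
    obtain ⟨β, hβ, e⟩ := exists_euC_list hX.sub hc a l (hl a List.mem_cons_self)
      fun c hc => hl c (List.mem_cons_of_mem _ hc)
    have hr' : l.length + 1 = r := hlen
    subst hr'
    obtain ⟨z, hz⟩ := hβ.int hr hX ho
    refine ⟨z, ?_⟩
    have h1 := integ_rcl hX ho hβ.ec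
    rw [e, map_smul, hz, smul_eq_mul] at h1
    have hp : ((2 * Real.pi : ℝ) : ℂ) ^ (l.length + 1) ≠ 0 :=
      pow_ne_zero _ (Complex.ofReal_ne_zero.2 (by positivity))
    refine mul_left_cancel₀ hp ?_
    rw [List.prod_cons, h1]
    push_cast
    ring

end Crest.Agent.X262.Itg23
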